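import Mathlib

/-!
# The geometric Brascamp-Lieb inequality by transport to a Gaussian

If unit vectors `w i` and weights `c i` decompose the identity, then a product of powers of
functions of `⟪w i, x⟫` integrates to at most the product of the powers of their integrals.
-/

namespace Vale.Agent.P237.Asym

open MeasureTheory Set Module Filter
open scoped RealInnerProductSpace ENNReal Topology

/-- The Gaussian weight of mass one. -/
noncomputable def gau (t : ℝ) : ℝ := Real.exp (-Real.pi * t ^ 2)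

theorem gau_pos (t : ℝ) : 0 < gau t := Real.exp_pos _

theorem continuous_gau : Continuous gau := by unfold gau; fun_prop

theorem integrable_gau : Integrable gau := integrable_exp_neg_mul_sq Real.pi_pos

theorem integral_gau : ∫ t, gau t = 1 := by
  unfold gau
  rw [integral_gaussian, div_self Real.pi_ne_zero, Real.sqrt_one]

/-- The distribution function of the Gaussian weight. -/
noncomputable def cdfG (x : ℝ) : ℝ := ∫ t in Iic x, gau t

theorem cdfG_eq (x : ℝ) : cdfG x = cdfG 0 + ∫ t in (0 : ℝ)..x, gau t := by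
  rw [cdfG, cdfG, ← intervalIntegral.integral_Iic_sub_Iic integrable_gau.integrableOn
    integrable_gau.integrableOn]
  ring

theorem hasDerivAt_cdfG (x : ℝ) : HasDerivAt cdfG (gau x) x := by
  have h := (intervalIntegral.integral_hasDerivAt_right (continuous_gau.intervalIntegrable 0 x)
    (continuous_gau.stronglyMeasurableAtFilter _ _) continuous_gau.continuousAt).const_add (cdfG 0)
  exact h.congr_of_eventuallyEq (Filter.Eventually.of_forall fun y => cdfG_eq y)

theorem strictMono_cdfG : StrictMono cdfG :=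
  strictMono_of_hasDerivAt_pos hasDerivAt_cdfG gau_pos

theorem continuous_cdfG : Continuous cdfG :=
  continuous_iff_continuousAt.2 fun x => (hasDerivAt_cdfG x).continuousAt

theorem tendsto_cdfG_top : Tendsto cdfG atTop (𝓝 1) := by
  have h := (intervalIntegral_tendsto_integral_Ioi 0 integrable_gau.integrableOn tendsto_id
    (f := gau)).const_add (cdfG 0)
  have e : cdfG 0 + ∫ t in Ioi (0 : ℝ), gau t = 1 := by
    rw [cdfG, ← integral_gau, intervalIntegral.integral_Iic_add_Ioi integrable_gau.integrableOn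
      integrable_gau.integrableOn]
  rw [e] at h
  exact h.congr fun x => (cdfG_eq x).symm

theorem tendsto_cdfG_bot : Tendsto cdfG atBot (𝓝 0) := by
  have h := (intervalIntegral_tendsto_integral_Iic 0 integrable_gau.integrableOn tendsto_id
    (f := gau)).const_sub (cdfG 0)
  rw [show cdfG 0 - ∫ t in Iic (0 : ℝ), gau t = 0 from sub_self _] at h
  refine h.congr fun x => ?_
  rw [cdfG_eq x, intervalIntegral.integral_symm]
  simp [sub_eq_add_neg]

theorem exists_cdfG_eq {y : ℝ} (hy : y ∈ Ioo (0 : ℝ) 1) : ∃ x, cdfG x = y := by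
  obtain ⟨a, ha⟩ := (tendsto_cdfG_bot.eventually (eventually_lt_nhds hy.1)).exists
  obtain ⟨b, hb⟩ := (tendsto_cdfG_top.eventually (eventually_gt_nhds hy.2)).exists
  exact intermediate_value_univ a b continuous_cdfG ⟨ha.le, hb.le⟩

/-- The inverse of the distribution function on `(0, 1)`. -/
noncomputable def invG (y : ℝ) : ℝ := Function.invFun cdfG y

theorem cdfG_invG {y : ℝ} (hy : y ∈ Ioo (0 : ℝ) 1) : cdfG (invG y) = y :=
  Function.invFun_eq (exists_cdfG_eq hy)

theorem cdfG_mem (x : ℝ) : cdfG x ∈ Ioo (0 : ℝ) 1 := by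
  constructor
  · exact lt_of_le_of_lt
      (le_of_tendsto tendsto_cdfG_bot ((eventually_le_atBot (x - 1)).mono fun y hy =>
        strictMono_cdfG.monotone hy)) (strictMono_cdfG (by linarith : x - 1 < x))
  · exact lt_of_lt_of_le (strictMono_cdfG (by linarith : x < x + 1))
      (ge_of_tendsto tendsto_cdfG_top ((eventually_ge_atTop (x + 1)).mono fun y hy =>
        strictMono_cdfG.monotone hy))

theorem hasDerivAt_invG {y : ℝ} (hy : y ∈ Ioo (0 : ℝ) 1) :
    HasDerivAt invG (gau (invG y))⁻¹ y := by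
  have hmono : StrictMonoOn invG (Ioo 0 1) := fun a ha b hb hab => by
    rw [← strictMono_cdfG.lt_iff_lt, cdfG_invG ha, cdfG_invG hb]
    exact hab
  have himg : invG '' Ioo 0 1 = univ := eq_univ_of_forall fun x =>
    ⟨cdfG x, cdfG_mem x, Function.leftInverse_invFun strictMono_cdfG.injective x⟩
  refine HasDerivAt.of_local_left_inverse (hmono.continuousAt_of_image_mem_nhds
    (Ioo_mem_nhds hy.1 hy.2) (himg ▸ univ_mem)) (hasDerivAt_cdfG _) (gau_pos _).ne' ?_
  filter_upwards [Ioo_mem_nhds hy.1 hy.2] with z hz using cdfG_invG hz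

/-- The monotone map from a positive weight on an interval to the Gaussian. -/
theorem exists_transport {p q : ℝ} {f : ℝ → ℝ} (hcont : ContinuousOn f (Ioo p q))
    (hpos : ∀ t ∈ Ioo p q, 0 < f t) (hint : IntegrableOn f (Ioo p q)) :
    ∃ T D : ℝ → ℝ, ∀ t ∈ Ioo p q, HasDerivAt T (D t) t ∧ 0 < D t ∧
      f t = (∫ s in Ioo p q, f s) * (gau (T t) * D t) := by
  set m := ∫ s in Ioo p q, f s with hm
  set F : ℝ → ℝ := fun t => (∫ s in Ioc p t, f s) / m with hF
  have hsplit : ∀ t ∈ Ioo p q, 0 < ∫ s in Ioc p t, f s ∧ ∫ s in Ioc p t, f s < m := by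
    intro t ht
    have hl : IntegrableOn f (Ioc p t) :=
      hint.mono_set (Ioc_subset_Ioo_right ht.2)
    have hr : IntegrableOn f (Ioo t q) := hint.mono_set (Ioo_subset_Ioo_left ht.1.le)
    have key : ∀ a b : ℝ, a < b → Ioo a b ⊆ Ioo p q → IntegrableOn f (Ioo a b) →
        0 < ∫ s in Ioo a b, f s := by
      intro a b hab hsub hi
      rw [setIntegral_pos_iff_support_of_nonneg_ae ?_ hi]
      · refine lt_of_lt_of_le ?_ (measure_mono (s := Ioo a b) fun s hs =>
          ⟨(hpos s (hsub hs)).ne', hs⟩)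
        simp [hab]
      · filter_upwards [ae_restrict_mem measurableSet_Ioo] with s hs using (hpos s (hsub hs)).le
    refine ⟨?_, ?_⟩
    · rw [integral_Ioc_eq_integral_Ioo]
      exact key p t ht.1 (Ioo_subset_Ioo_right ht.2.le) (hl.mono_set Ioo_subset_Ioc_self)
    · have e : m = (∫ s in Ioc p t, f s) + ∫ s in Ioo t q, f s := by
        rw [hm, ← setIntegral_union ((Ioc_disjoint_Ioi le_rfl).mono_right Ioo_subset_Ioi_self)
          measurableSet_Ioo hl hr, Ioc_union_Ioo_eq_Ioo ht.1.le ht.2]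
      have := key t q ht.2 (Ioo_subset_Ioo_left ht.1.le) hr
      linarith
  refine ⟨fun t => invG (F t), fun t => (gau (invG (F t)))⁻¹ * (f t / m), fun t ht => ?_⟩
  obtain ⟨h1, h2⟩ := hsplit t ht
  have hm0 : 0 < m := h1.trans h2
  have hFt : F t ∈ Ioo (0 : ℝ) 1 := ⟨div_pos h1 hm0, (div_lt_one hm0).2 h2⟩
  have hd : HasDerivAt F (f t / m) t := by
    refine HasDerivAt.div_const ?_ m
    have hii : IntervalIntegrable f volume p t := by
      rw [intervalIntegrable_iff_integrableOn_Ioc_of_le ht.1.le]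
      exact hint.mono_set (Ioc_subset_Ioo_right ht.2)
    have h := intervalIntegral.integral_hasDerivAt_right hii
      (hcont.stronglyMeasurableAtFilter isOpen_Ioo t ht) (hcont.continuousAt (Ioo_mem_nhds ht.1 ht.2))
    refine h.congr_of_eventuallyEq ?_
    filter_upwards [Ioo_mem_nhds ht.1 ht.2] with s hs
    rw [intervalIntegral.integral_of_le hs.1.le]
  refine ⟨(hasDerivAt_invG hFt).comp t hd,
    mul_pos (inv_pos.2 (gau_pos _)) (div_pos (hpos t ht) hm0), ?_⟩
  have := (gau_pos (invG (F t))).ne'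
  field_simp

variable {E : Type*} [NormedAddCommGroup E] [InnerProductSpace ℝ E] [FiniteDimensional ℝ E]
  {ι : Type*} {s : Finset ι} {c : ι → ℝ} {w : ι → E}

omit [FiniteDimensional ℝ E] in
/-- The norm of a combination of a decomposition of the identity. -/
theorem norm_sq_combo_le (hc : ∀ i ∈ s, 0 ≤ c i)
    (hiso : ∀ x : E, ∑ i ∈ s, c i * ⟪w i, x⟫ ^ 2 = ‖x‖ ^ 2) (a : ι → ℝ) :
    ‖∑ i ∈ s, (c i * a i) • w i‖ ^ 2 ≤ ∑ i ∈ s, c i * a i ^ 2 := by
  set z := ∑ i ∈ s, (c i * a i) • w i with hz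
  have e : ‖z‖ ^ 2 = ∑ i ∈ s, c i * a i * ⟪w i, z⟫ := by
    rw [← real_inner_self_eq_norm_sq]
    nth_rw 1 [hz]
    rw [sum_inner]
    exact Finset.sum_congr rfl fun i _ => real_inner_smul_left _ _ _
  have h2 : 2 * ‖z‖ ^ 2 ≤ (∑ i ∈ s, c i * a i ^ 2) + ‖z‖ ^ 2 := by
    nth_rw 2 [← hiso z]
    rw [e, Finset.mul_sum, ← Finset.sum_add_distrib]
    exact Finset.sum_le_sum fun i hi => by
      nlinarith [mul_nonneg (hc i hi) (sq_nonneg (a i - ⟪w i, z⟫))]
  linarith

/-- The determinant of a positive combination of a decomposition of the identity. -/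
theorem det_combo_ge (hc : ∀ i ∈ s, 0 ≤ c i) (hw : ∀ i ∈ s, ‖w i‖ = 1)
    (hiso : ∀ x : E, ∑ i ∈ s, c i * ⟪w i, x⟫ ^ 2 = ‖x‖ ^ 2) {d : ι → ℝ} (hd : ∀ i ∈ s, 0 ≤ d i) :
    ∏ i ∈ s, d i ^ c i ≤
      |(∑ i ∈ s, (c i * d i) • (innerSL ℝ (w i)).smulRight (w i)).det| := by
  set A : E →L[ℝ] E := ∑ i ∈ s, (c i * d i) • (innerSL ℝ (w i)).smulRight (w i) with hA
  have hAx : ∀ x : E, A x = ∑ i ∈ s, (c i * d i * ⟪w i, x⟫) • w i := fun x => by
    simp [hA, smul_smul]
  have hsym : (A : E →ₗ[ℝ] E).IsSymmetric := fun x y => by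
    show ⟪A x, y⟫ = ⟪x, A y⟫
    rw [hAx, hAx, sum_inner, inner_sum]
    refine Finset.sum_congr rfl fun i _ => ?_
    rw [real_inner_smul_left, real_inner_smul_right, real_inner_comm x (w i)]
    ring
  set e := hsym.eigenvectorBasis rfl
  set lam := hsym.eigenvalues rfl
  have hlam : ∀ k, lam k = ∑ i ∈ s, c i * ⟪w i, e k⟫ ^ 2 * d i := by
    intro k
    have h : A (e k) = lam k • e k := hsym.apply_eigenvectorBasis rfl k
    have h' := congrArg (fun z => ⟪z, e k⟫) h
    simp only [real_inner_smul_left, real_inner_self_eq_norm_sq, e.norm_eq_one, hAx, sum_inner]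
      at h'
    rw [one_pow, mul_one] at h'
    rw [← h']
    exact Finset.sum_congr rfl fun i _ => by ring
  have hdet : A.det = ∏ k, lam k := by
    have h := hsym.det_eq_prod_eigenvalues rfl
    simpa using h
  have hrow : ∀ i ∈ s, ∑ k, c i * ⟪w i, e k⟫ ^ 2 = c i := by
    intro i hi
    rw [← Finset.mul_sum]
    conv_rhs => rw [← mul_one (c i)]
    congr 1
    rw [← one_pow 2, ← hw i hi, ← e.sum_sq_norm_inner_left (w i)]
    exact Finset.sum_congr rfl fun k _ => by rw [Real.norm_eq_abs, sq_abs, real_inner_comm]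
  have hcol : ∀ k, ∑ i ∈ s, c i * ⟪w i, e k⟫ ^ 2 = 1 := fun k => by
    rw [hiso, e.norm_eq_one, one_pow]
  rw [hdet]
  refine le_trans ?_ (le_abs_self _)
  calc ∏ i ∈ s, d i ^ c i = ∏ i ∈ s, ∏ k, d i ^ (c i * ⟪w i, e k⟫ ^ 2) :=
        Finset.prod_congr rfl fun i hi => by
          rw [← Real.rpow_sum_of_nonneg (hd i hi) fun k _ => mul_nonneg (hc i hi) (sq_nonneg _),
            hrow i hi]
    _ = ∏ k, ∏ i ∈ s, d i ^ (c i * ⟪w i, e k⟫ ^ 2) := Finset.prod_comm
    _ ≤ ∏ k, lam k := Finset.prod_le_prod (fun k _ => Finset.prod_nonneg fun i hi =>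
        Real.rpow_nonneg (hd i hi) _) fun k _ => by
      rw [hlam]
      exact Real.geom_mean_le_arith_mean_weighted _ _ _
        (fun i hi => mul_nonneg (hc i hi) (sq_nonneg _)) (hcol k) hd

variable [MeasurableSpace E] [BorelSpace E]

/-- The geometric Brascamp-Lieb inequality for positive continuous functions on intervals. -/
theorem geometric_bl (hc : ∀ i ∈ s, 0 ≤ c i) (hw : ∀ i ∈ s, ‖w i‖ = 1)
    (hiso : ∀ x : E, ∑ i ∈ s, c i * ⟪w i, x⟫ ^ 2 = ‖x‖ ^ 2)
    {p q : ι → ℝ} {f : ι → ℝ → ℝ} (hcont : ∀ i ∈ s, ContinuousOn (f i) (Ioo (p i) (q i)))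
    (hpos : ∀ i ∈ s, ∀ t ∈ Ioo (p i) (q i), 0 < f i t)
    (hint : ∀ i ∈ s, IntegrableOn (f i) (Ioo (p i) (q i)))
    {U : Set E} (hU : MeasurableSet U) (hsub : ∀ x ∈ U, ∀ i ∈ s, ⟪w i, x⟫ ∈ Ioo (p i) (q i)) :
    ∫⁻ x in U, ENNReal.ofReal (∏ i ∈ s, f i ⟪w i, x⟫ ^ c i) ≤
      ENNReal.ofReal (∏ i ∈ s, (∫ t in Ioo (p i) (q i), f i t) ^ c i) := by
  choose! T D hTD using fun i hi => exists_transport (hcont i hi) (hpos i hi) (hint i hi)
  set M := ∏ i ∈ s, (∫ t in Ioo (p i) (q i), f i t) ^ c i with hM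
  have hm0 : ∀ i ∈ s, 0 ≤ ∫ t in Ioo (p i) (q i), f i t := fun i hi =>
    setIntegral_nonneg measurableSet_Ioo fun t ht => (hpos i hi t ht).le
  have hM0 : 0 ≤ M := Finset.prod_nonneg fun i hi => Real.rpow_nonneg (hm0 i hi) _
  set H : E → E := fun x => ∑ i ∈ s, (c i * T i ⟪w i, x⟫) • w i with hH
  set H' : E → E →L[ℝ] E :=
    fun x => ∑ i ∈ s, (c i * D i ⟪w i, x⟫) • (innerSL ℝ (w i)).smulRight (w i) with hH'
  have hderiv : ∀ x ∈ U, HasFDerivWithinAt H (H' x) U x := by
    intro x hx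
    refine HasFDerivAt.hasFDerivWithinAt (HasFDerivAt.fun_sum fun i hi => ?_)
    have h1 : HasFDerivAt (fun y => T i ⟪w i, y⟫) (D i ⟪w i, x⟫ • innerSL ℝ (w i)) x :=
      (hTD i hi _ (hsub x hx i hi)).1.comp_hasFDerivAt x (innerSL ℝ (w i)).hasFDerivAt
    have h2 := (h1.const_mul (c i)).smul_const (w i)
    refine h2.congr_fderiv ?_
    ext y
    simp [smul_smul, mul_assoc]
  have hinj : InjOn H U := by
    intro x hx y hy hxy
    by_contra hne
    have hd : 0 < ‖x - y‖ ^ 2 := by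
      have := norm_pos_iff.2 (sub_ne_zero.2 hne)
      positivity
    rw [← hiso] at hd
    have hz : ∑ i ∈ s, c i * (T i ⟪w i, x⟫ - T i ⟪w i, y⟫) * ⟪w i, x - y⟫ = 0 := by
      have h : ⟪H x - H y, x - y⟫ = 0 := by rw [hxy, sub_self, inner_zero_left]
      rw [← h, hH]
      simp only [← Finset.sum_sub_distrib, sum_inner, ← sub_smul, real_inner_smul_left, mul_sub]
    have hmono : ∀ i ∈ s, StrictMonoOn (T i) (Ioo (p i) (q i)) := fun i hi =>
      strictMonoOn_of_hasDerivWithinAt_pos (convex_Ioo _ _)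
        (fun t ht => ((hTD i hi t ht).1.continuousAt).continuousWithinAt)
        (fun t ht => (hTD i hi t (interior_subset ht)).1.hasDerivWithinAt)
        fun t ht => (hTD i hi t (interior_subset ht)).2.1
    have hterm : ∀ i ∈ s, 0 ≤ c i * (T i ⟪w i, x⟫ - T i ⟪w i, y⟫) * ⟪w i, x - y⟫ ∧
        (c i * (T i ⟪w i, x⟫ - T i ⟪w i, y⟫) * ⟪w i, x - y⟫ = 0 →
          c i * ⟪w i, x - y⟫ ^ 2 = 0) := by
      intro i hi
      have hm := hmono i hi
      have ha := hsub x hx i hi
      have hb := hsub y hy i hi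
      rw [inner_sub_right]
      rcases lt_trichotomy ⟪w i, x⟫ ⟪w i, y⟫ with h | h | h
      · have h' := hm ha hb h
        refine ⟨?_, fun h0 => ?_⟩
        · rw [mul_assoc]
          exact mul_nonneg (hc i hi) (mul_nonneg_of_nonpos_of_nonpos (by linarith) (by linarith))
        · rcases mul_eq_zero.1 h0 with h1 | h1
          · rcases mul_eq_zero.1 h1 with h2 | h2
            · simp [h2]
            · linarith
          · linarith
      · simp [h]
      · have h' := hm hb ha h
        refine ⟨mul_nonneg (mul_nonneg (hc i hi) (by linarith)) (by linarith), fun h0 => ?_⟩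
        rcases mul_eq_zero.1 h0 with h1 | h1
        · rcases mul_eq_zero.1 h1 with h2 | h2
          · simp [h2]
          · linarith
        · linarith
    have hall := (Finset.sum_eq_zero_iff_of_nonneg fun i hi => (hterm i hi).1).1 hz
    rw [Finset.sum_eq_zero fun i hi => (hterm i hi).2 (hall i hi)] at hd
    exact lt_irrefl 0 hd
  set G : E → ℝ := fun z => Real.exp (-Real.pi * ‖z‖ ^ 2) with hG
  have hpt : ∀ x ∈ U, ∏ i ∈ s, f i ⟪w i, x⟫ ^ c i ≤ M * (|(H' x).det| * G (H x)) := by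
    intro x hx
    have hterm : ∀ i ∈ s, f i ⟪w i, x⟫ ^ c i = (∫ t in Ioo (p i) (q i), f i t) ^ c i *
        (Real.exp (-Real.pi * (c i * T i ⟪w i, x⟫ ^ 2)) * D i ⟪w i, x⟫ ^ c i) := by
      intro i hi
      obtain ⟨-, hD, he⟩ := hTD i hi _ (hsub x hx i hi)
      rw [he, Real.mul_rpow (hm0 i hi) (mul_nonneg (gau_pos _).le hD.le),
        Real.mul_rpow (gau_pos _).le hD.le, gau, ← Real.exp_mul]
      ring_nf
    rw [Finset.prod_congr rfl hterm, Finset.prod_mul_distrib, Finset.prod_mul_distrib,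
      ← Real.exp_sum, ← hM, ← Finset.mul_sum, mul_comm |(H' x).det|]
    refine mul_le_mul_of_nonneg_left ?_ hM0
    refine mul_le_mul ?_ (det_combo_ge hc hw hiso fun i hi => (hTD i hi _ (hsub x hx i hi)).2.1.le)
      (Finset.prod_nonneg fun i hi => Real.rpow_nonneg (hTD i hi _ (hsub x hx i hi)).2.1.le _)
      (Real.exp_pos _).le
    refine Real.exp_le_exp.2 ?_
    nlinarith [norm_sq_combo_le hc hiso fun i => T i ⟪w i, x⟫, Real.pi_pos]
  have hGint : Integrable G := by
    have h : Integrable (fun z : E => Real.exp (-Real.pi * ‖z‖ ^ 2)) := by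
      refine Integrable.of_integral_ne_zero ?_
      rw [GaussianFourier.integral_rexp_neg_mul_sq_norm Real.pi_pos]
      positivity
    exact h
  calc ∫⁻ x in U, ENNReal.ofReal (∏ i ∈ s, f i ⟪w i, x⟫ ^ c i)
      ≤ ∫⁻ x in U, ENNReal.ofReal M * (ENNReal.ofReal |(H' x).det| * ENNReal.ofReal (G (H x))) := by
        refine setLIntegral_mono' hU fun x hx => ?_
        rw [← ENNReal.ofReal_mul (abs_nonneg _), ← ENNReal.ofReal_mul hM0]
        exact ENNReal.ofReal_le_ofReal (hpt x hx)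
    _ = ENNReal.ofReal M * ∫⁻ z in H '' U, ENNReal.ofReal (G z) := by
        rw [lintegral_const_mul' _ _ ENNReal.ofReal_ne_top,
          lintegral_image_eq_lintegral_abs_det_fderiv_mul volume hU hderiv hinj]
    _ ≤ ENNReal.ofReal M * ∫⁻ z, ENNReal.ofReal (G z) :=
        mul_le_mul_right (setLIntegral_le_lintegral _ _) _
    _ = _ := by
        rw [← ofReal_integral_eq_lintegral_ofReal hGint (Eventually.of_forall fun z =>
          (Real.exp_pos _).le), hG, GaussianFourier.integral_rexp_neg_mul_sq_norm Real.pi_pos,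
          div_self Real.pi_ne_zero, Real.one_rpow, ENNReal.ofReal_one, mul_one]

end Vale.Agent.P237.Asym
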