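import Mathlib

/-!
# The product bound against the value at the ball, up to `exp (o(n))`

With `L n = log (kap n)` one has `L (n+2) - L n = log (2π) - log (n+2)` and `L` is concave, which
gives the increments up to `o(1)`; three Stolz-Cesaro steps give both sides up to `o(n)`.
-/

namespace Vale.Agent.P237.Asym

open MeasureTheory Filter Finset
open scoped Topology

/-- The volume of the Euclidean unit ball. -/
noncomputable def kap (n : ℕ) : ℝ :=
  volume.real (Metric.closedBall (0 : EuclideanSpace ℝ (Fin n)) 1)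

/-- The product bound for the normalised projection volume. -/
noncomputable def prodBound (n : ℕ) : ℝ := 4 * ∏ k ∈ Finset.Icc 3 n, kap k ^ ((k : ℝ)⁻¹)

/-- The logarithm of the volume of the unit ball. -/
noncomputable def logKap (n : ℕ) : ℝ :=
  (n : ℝ) * (Real.log Real.pi / 2) - Real.log (Real.Gamma ((n : ℝ) / 2 + 1))

theorem kap_eq_exp {n : ℕ} (hn : 1 ≤ n) : kap n = Real.exp (logKap n) := by
  have : Nonempty (Fin n) := ⟨⟨0, hn⟩⟩
  have hg : 0 < Real.Gamma ((n : ℝ) / 2 + 1) := Real.Gamma_pos_of_pos (by positivity)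
  rw [kap, measureReal_def, EuclideanSpace.volume_closedBall, ENNReal.ofReal_one, one_pow, one_mul,
    Fintype.card_fin, ENNReal.toReal_ofReal (by positivity), logKap, Real.exp_sub, Real.exp_log hg,
    Real.exp_nat_mul, ← Real.log_sqrt Real.pi_pos.le, Real.exp_log (Real.sqrt_pos.2 Real.pi_pos)]

theorem logKap_add_two (n : ℕ) :
    logKap (n + 2) - logKap n = Real.log (2 * Real.pi) - Real.log ((n : ℝ) + 2) := by
  have h : ((n : ℝ) / 2 + 1) ≠ 0 := by positivity
  have hg : Real.Gamma ((n : ℝ) / 2 + 1) ≠ 0 := (Real.Gamma_pos_of_pos (by positivity)).ne'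
  rw [logKap, logKap, show ((n + 2 : ℕ) : ℝ) / 2 + 1 = ((n : ℝ) / 2 + 1) + 1 by push_cast; ring,
    Real.Gamma_add_one h, Real.log_mul h hg,
    show (n : ℝ) / 2 + 1 = ((n : ℝ) + 2) / 2 by ring,
    Real.log_div (by positivity) two_ne_zero, Real.log_mul two_ne_zero Real.pi_ne_zero]
  push_cast
  ring

theorem logKap_concave (n : ℕ) : logKap n + logKap (n + 2) ≤ 2 * logKap (n + 1) := by
  have hx : (n : ℝ) / 2 + 1 ∈ Set.Ioi (0 : ℝ) := show (0 : ℝ) < _ by positivity
  have hy : (n : ℝ) / 2 + 2 ∈ Set.Ioi (0 : ℝ) := show (0 : ℝ) < _ by positivity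
  have h := Real.convexOn_log_Gamma.2 hx hy (show (0 : ℝ) ≤ 1 / 2 by norm_num)
    (show (0 : ℝ) ≤ 1 / 2 by norm_num) (by norm_num)
  simp only [smul_eq_mul, Function.comp_apply] at h
  rw [show (1 / 2 : ℝ) * ((n : ℝ) / 2 + 1) + 1 / 2 * ((n : ℝ) / 2 + 2) = (n + 1) / 2 + 1 by
    ring] at h
  rw [logKap, logKap, logKap]
  push_cast
  rw [show ((n : ℝ) + 2) / 2 + 1 = (n : ℝ) / 2 + 2 by ring]
  linarith

theorem tendsto_stolz {x : ℕ → ℝ} {l : ℝ}
    (h : Tendsto (fun i => x (i + 1) - x i) atTop (𝓝 l)) :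
    Tendsto (fun n => x n / n) atTop (𝓝 l) := by
  have h0 : Tendsto (fun n : ℕ => x 0 / n) atTop (𝓝 0) := tendsto_const_div_atTop_nhds_zero_nat _
  refine (add_zero l ▸ h.cesaro.add h0).congr fun n => ?_
  rw [Finset.sum_range_sub]
  ring

theorem tendsto_log_succ_sub :
    Tendsto (fun n : ℕ => Real.log ((n : ℝ) + 1) - Real.log n) atTop (𝓝 0) := by
  have h : Tendsto (fun n : ℕ => Real.log (1 + 1 / (n : ℝ))) atTop (𝓝 (Real.log 1)) :=
    (Real.continuousAt_log one_ne_zero).tendsto.comp (by
      simpa using (tendsto_const_div_atTop_nhds_zero_nat (1 : ℝ)).const_add 1)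
  rw [Real.log_one] at h
  refine h.congr' ?_
  filter_upwards [eventually_gt_atTop 0] with n hn
  have hn' : (0 : ℝ) < n := by exact_mod_cast hn
  rw [← Real.log_div (by positivity) hn'.ne', add_div, div_self hn'.ne']

theorem tendsto_logKap_increment :
    Tendsto (fun n => logKap (n + 1) - logKap n + Real.log ((n : ℝ) + 1) / 2) atTop
      (𝓝 (Real.log (2 * Real.pi) / 2)) := by
  have hs : Tendsto (fun n : ℕ => Real.log (2 * Real.pi) / 2 -
      (Real.log ((n : ℝ) + 2) - Real.log ((n : ℝ) + 1)) / 2) atTop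
      (𝓝 (Real.log (2 * Real.pi) / 2)) := by
    have h := ((tendsto_log_succ_sub.comp (tendsto_add_atTop_nat 1)).div_const 2).const_sub
      (Real.log (2 * Real.pi) / 2)
    rw [zero_div, sub_zero] at h
    refine h.congr fun n => ?_
    simp only [Function.comp_apply]
    push_cast
    rw [show ((n : ℝ) + 1 + 1) = n + 2 by ring]
  refine tendsto_of_tendsto_of_tendsto_of_le_of_le' hs tendsto_const_nhds ?_ ?_
  · exact Eventually.of_forall fun n => by linarith [logKap_add_two n, logKap_concave n]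
  · filter_upwards [eventually_ge_atTop 1] with n hn
    obtain ⟨m, rfl⟩ : ∃ m, n = m + 1 := ⟨n - 1, by omega⟩
    have h1 := logKap_add_two m
    have h2 := logKap_concave m
    push_cast
    rw [show ((m : ℝ) + 1 + 1) = m + 2 by ring]
    linarith

theorem tendsto_mul_log_sub_log_factorial :
    Tendsto (fun n : ℕ => ((n : ℝ) * Real.log n - Real.log (n.factorial : ℝ)) / n) atTop
      (𝓝 1) := by
  refine tendsto_stolz ?_
  refine ((Real.tendsto_mul_log_one_add_div_atTop 1).comp tendsto_natCast_atTop_atTop).congr' ?_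
  filter_upwards [eventually_gt_atTop 0] with n hn
  have hn' : (0 : ℝ) < n := by exact_mod_cast hn
  have hf : (n.factorial : ℝ) ≠ 0 := by exact_mod_cast n.factorial_ne_zero
  simp only [Function.comp_apply]
  rw [Nat.factorial_succ, Nat.cast_mul, Real.log_mul (by positivity) hf,
    show 1 + 1 / (n : ℝ) = ((n : ℝ) + 1) / n by field_simp,
    Real.log_div (by positivity) hn'.ne']
  push_cast
  ring

/-- The first order of `log kap`. -/
theorem tendsto_logKap_div :
    Tendsto (fun n : ℕ => logKap n / n + Real.log n / 2) atTop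
      (𝓝 (Real.log (2 * Real.pi) / 2 + 1 / 2)) := by
  have h := tendsto_stolz (x := fun n => logKap n + Real.log (n.factorial : ℝ) / 2)
    (tendsto_logKap_increment.congr fun n => by
      have hf : (n.factorial : ℝ) ≠ 0 := by exact_mod_cast n.factorial_ne_zero
      rw [Nat.factorial_succ, Nat.cast_mul, Real.log_mul (by positivity) hf]
      push_cast
      ring)
  refine (h.add (tendsto_mul_log_sub_log_factorial.div_const 2)).congr' ?_
  filter_upwards [eventually_gt_atTop 0] with n hn
  have hn' : (0 : ℝ) < n := by exact_mod_cast hn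
  field_simp
  ring

theorem tendsto_logProd :
    Tendsto (fun n : ℕ => (Real.log 4 + ∑ k ∈ Finset.Icc 3 n, logKap k / k) / n + Real.log n / 2)
      atTop (𝓝 (Real.log (2 * Real.pi) / 2 + 1)) := by
  set A := Real.log (2 * Real.pi) / 2 + 1 / 2
  have hinc := (tendsto_add_atTop_iff_nat 1).2 tendsto_logKap_div
  have h := tendsto_stolz (x := fun n => Real.log 4 + (∑ k ∈ Finset.Icc 3 n, logKap k / k) +
      Real.log (n.factorial : ℝ) / 2) (hinc.congr' (by
    filter_upwards [eventually_ge_atTop 2] with n hn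
    have hf : (n.factorial : ℝ) ≠ 0 := by exact_mod_cast n.factorial_ne_zero
    rw [Finset.sum_Icc_succ_top (show 3 ≤ n + 1 by omega), Nat.factorial_succ, Nat.cast_mul,
      Real.log_mul (by positivity) hf]
    push_cast
    ring))
  have h2 := h.add (tendsto_mul_log_sub_log_factorial.div_const 2)
  rw [show Real.log (2 * Real.pi) / 2 + 1 = A + 1 / 2 by ring]
  refine h2.congr' ?_
  filter_upwards [eventually_gt_atTop 0] with n hn
  have hn' : (0 : ℝ) < n := by exact_mod_cast hn
  field_simp
  ring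

theorem tendsto_logBall :
    Tendsto (fun n : ℕ => ((n : ℝ) * logKap (n - 1) - ((n : ℝ) - 2) * logKap n) / n +
      Real.log n / 2) atTop (𝓝 (Real.log (2 * Real.pi) / 2 + 1)) := by
  rw [← tendsto_add_atTop_iff_nat 1]
  have h := (((tendsto_add_atTop_iff_nat 1).2 tendsto_logKap_div).const_mul 2).sub
    tendsto_logKap_increment
  rw [show 2 * (Real.log (2 * Real.pi) / 2 + 1 / 2) - Real.log (2 * Real.pi) / 2 =
    Real.log (2 * Real.pi) / 2 + 1 by ring] at h
  refine h.congr fun n => ?_
  have hn' : (0 : ℝ) < (n : ℝ) + 1 := by positivity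
  simp only [Nat.add_sub_cancel]
  push_cast
  field_simp
  ring

/-- The product bound is the value at the ball up to `(1 - e) ^ n`. -/
theorem prodBound_ge_ball (e : ℝ) (he : 0 < e) (he1 : e < 1) :
    ∃ N : ℕ, ∀ n ≥ N, (1 - e) ^ n * (kap (n - 1) ^ n / kap n ^ (n - 2)) ≤ prodBound n := by
  have h := tendsto_logProd.sub tendsto_logBall
  rw [sub_self] at h
  have hl : Real.log (1 - e) < 0 := Real.log_neg (by linarith) (by linarith)
  obtain ⟨N, hN⟩ := eventually_atTop.1 (h.eventually (eventually_gt_nhds hl))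
  refine ⟨max N 3, fun n hn => ?_⟩
  have hn3 : 3 ≤ n := le_trans (le_max_right _ _) hn
  have hn' : (0 : ℝ) < n := by exact_mod_cast (show 0 < n by omega)
  have h2 := hN n (le_trans (le_max_left _ _) hn)
  rw [add_sub_add_right_eq_sub, ← sub_div, lt_div_iff₀ hn'] at h2
  have hP : prodBound n = Real.exp (Real.log 4 + ∑ k ∈ Finset.Icc 3 n, logKap k / k) := by
    rw [prodBound, Real.exp_add, Real.exp_log (by norm_num), Real.exp_sum]
    congr 1
    refine Finset.prod_congr rfl fun k hk => ?_
    rw [kap_eq_exp (le_trans (by norm_num) (Finset.mem_Icc.1 hk).1), ← Real.exp_mul,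
      div_eq_mul_inv]
  rw [hP, kap_eq_exp (show 1 ≤ n - 1 by omega), kap_eq_exp (show 1 ≤ n by omega),
    ← Real.exp_log (show (0 : ℝ) < 1 - e by linarith), ← Real.exp_nat_mul, ← Real.exp_nat_mul,
    ← Real.exp_nat_mul, ← Real.exp_sub, ← Real.exp_add]
  refine Real.exp_le_exp.2 ?_
  rw [Nat.cast_sub (show 2 ≤ n by omega)]
  push_cast
  linarith

end Vale.Agent.P237.Asym
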