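import Vale.Agent.P237.Asym.Step
import Vale.Agent.P237.Asym.BallAsymptotics
import Vale.Agent.P237.AllN.Approx
import Vale.Agent.P237.Petty.Three

/-!
# Petty's inequality up to a subexponential factor
-/

namespace Vale.Agent.P237.Asym

open MeasureTheory Set Module AllN
open scoped RealInnerProductSpace ENNReal Pointwise

/-- The bound `C` holds for all compact convex sets of dimension `n`. -/
def BoundAt (n : ℕ) (C : ℝ) : Prop :=
  ∀ (E : Type) [NormedAddCommGroup E] [InnerProductSpace ℝ E] [FiniteDimensional ℝ E]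
    [MeasurableSpace E] [BorelSpace E], finrank ℝ E = n → ∀ K : Set E, IsCompact K → Convex ℝ K →
      C * volume.real K ^ (n - 1) ≤ volume.real (projBody K)

theorem kap_nonneg (n : ℕ) : 0 ≤ kap n := measureReal_nonneg

/-- The unit ball of an abstract Euclidean space. -/
theorem vroot_closedBall {E : Type} [NormedAddCommGroup E] [InnerProductSpace ℝ E]
    [FiniteDimensional ℝ E] [MeasurableSpace E] [BorelSpace E] {n : ℕ} (hfin : finrank ℝ E = n) :
    vroot (Metric.closedBall (0 : E) 1) = kap n ^ ((n : ℝ)⁻¹) := by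
  set e := ((stdOrthonormalBasis ℝ E).reindex (finCongr hfin)).repr
  rw [vroot, hfin, kap]
  congr 1
  rw [measureReal_def, measureReal_def]
  congr 1
  rw [← e.measurePreserving.measure_preimage measurableSet_closedBall.nullMeasurableSet]
  congr 1
  ext x
  simp

/-- Raising the dimension by one costs at most the root of the volume of the ball. -/
theorem BoundAt.succ {n : ℕ} (hn : 1 ≤ n) {C : ℝ} (hC : 0 ≤ C) (h : BoundAt n C) :
    BoundAt (n + 1) (C * kap (n + 1) ^ (((n + 1 : ℕ) : ℝ)⁻¹)) := by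
  intro E _ _ _ _ _ hfin K hK hKc
  obtain ⟨k, rfl⟩ : ∃ k, n = k + 1 := ⟨n - 1, by omega⟩
  have : Nontrivial E := Module.nontrivial_of_finrank_eq_succ hfin
  rw [← hfin]
  refine body_of_poly (by omega) (fun s b hs hb hP => ?_)
    (mul_nonneg hC (Real.rpow_nonneg (kap_nonneg _) _)) hK hKc
  have h' := poly_step k hC hfin (fun v hv L hL hLc => by
    have : Fact (finrank ℝ E = (k + 1) + 1) := ⟨hfin⟩
    simpa using h (ℝ ∙ v)ᗮ
      (Submodule.finrank_orthogonal_span_singleton (norm_ne_zero_iff.1 (by simp [hv]))) L hL hLc)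
    hs hb hP
  rw [vroot_closedBall hfin] at h'
  simpa [hfin] using h'

/-- The bound propagated from dimension `m`. -/
theorem bound_from {m : ℕ} (hm : 1 ≤ m) {C : ℝ} (hC : 0 ≤ C) (h : BoundAt m C) :
    ∀ n, m ≤ n → BoundAt n (C * ∏ k ∈ Finset.Ioc m n, kap k ^ ((k : ℝ)⁻¹)) := by
  intro n hn
  induction n, hn using Nat.le_induction with
  | base => simpa using h
  | succ n hn ih =>
    rw [Finset.prod_Ioc_succ_top hn, ← mul_assoc]
    exact ih.succ (hm.trans hn) (mul_nonneg hC (Finset.prod_nonneg fun k _ =>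
      Real.rpow_nonneg (kap_nonneg k) _))

theorem boundAt_two : BoundAt 2 4 := fun E _ _ _ _ _ hfin K hK hKc => by
  simpa using planar hfin hK hKc

theorem boundAt_three : BoundAt 3 (kap 2 ^ 3 / kap 3) := by
  intro E _ _ _ _ _ hfin K hK hKc
  by_cases hne : (interior K).Nonempty
  · have h := (Petty.petty_three (K := K) hfin ⟨hK, hKc, hne⟩).1
    simpa [Petty.cPetty, Petty.kappa, kap] using h
  · have h0 : volume K = 0 := measure_mono_null
      (show K ⊆ frontier K from fun x hx => ⟨subset_closure hx, fun h => hne ⟨x, h⟩⟩)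
      (hKc.addHaar_frontier volume)
    simp [measureReal_def, h0, ENNReal.toReal_nonneg]

/-- The bound from the plane. -/
theorem bound_prod (n : ℕ) (hn : 2 ≤ n) : BoundAt n (prodBound n) := by
  have h := bound_from (by norm_num) (by norm_num) boundAt_two n hn
  have e : Finset.Icc 3 n = Finset.Ioc 2 n := by
    ext k; simp only [Finset.mem_Icc, Finset.mem_Ioc]; omega
  rwa [prodBound, e]

/-- The bound from space. -/
theorem bound_three (n : ℕ) (hn : 3 ≤ n) :
    BoundAt n (kap 2 ^ 3 / kap 3 * ∏ k ∈ Finset.Ioc 3 n, kap k ^ ((k : ℝ)⁻¹)) :=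
  bound_from (by norm_num) (div_nonneg (pow_nonneg (kap_nonneg _) _) (kap_nonneg _)) boundAt_three
    n hn

/-- Asymptotic sharpness. -/
theorem asymptotically_sharp {ε : ℝ} (hε : 0 < ε) (hε1 : ε < 1) :
    ∃ N, ∀ n ≥ N, BoundAt n ((1 - ε) ^ n * (kap (n - 1) ^ n / kap n ^ (n - 2))) := by
  obtain ⟨N, hN⟩ := prodBound_ge_ball ε hε hε1
  refine ⟨max N 2, fun n hn E _ _ _ _ _ hfin K hK hKc => ?_⟩
  exact (mul_le_mul_of_nonneg_right (hN n (le_of_max_le_left hn))
    (pow_nonneg measureReal_nonneg _)).trans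
      (bound_prod n (le_of_max_le_right hn) E hfin K hK hKc)

end Vale.Agent.P237.Asym
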