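import Vale.Agent.P237.AllN.Poly
import Vale.Agent.P237.Asym.BL

/-!
# Averages of reciprocal section radii
-/

namespace Vale.Agent.P237.Asym

open MeasureTheory Set Module Function Filter AllN
open scoped RealInnerProductSpace ENNReal Pointwise Topology

variable {E : Type*} [NormedAddCommGroup E] [InnerProductSpace ℝ E] [FiniteDimensional ℝ E]
  [MeasurableSpace E] [BorelSpace E]

/-- A nonnegative concave function with a positive value is positive inside the interval. -/
theorem pos_of_concave {f : ℝ → ℝ} {c d x₀ : ℝ} (hf : ConcaveOn ℝ (Icc c d) f)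
    (h0 : ∀ t ∈ Icc c d, 0 ≤ f t) (hx₀ : x₀ ∈ Icc c d) (hp : 0 < f x₀) {t : ℝ}
    (ht : t ∈ Ioo c d) : 0 < f t := by
  rcases lt_trichotomy t x₀ with h | h | h
  · have hl : 0 < x₀ - c := by linarith [ht.1]
    have := hf.2 (left_mem_Icc.2 (ht.1.trans ht.2).le) hx₀ (div_nonneg (by linarith : (0 : ℝ) ≤ x₀ - t) hl.le)
      (div_nonneg (by linarith [ht.1] : (0 : ℝ) ≤ t - c) hl.le) (by field_simp; ring)
    simp only [smul_eq_mul] at this
    have e : (x₀ - t) / (x₀ - c) * c + (t - c) / (x₀ - c) * x₀ = t := by field_simp; ring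
    rw [e] at this
    have h1 : 0 < (t - c) / (x₀ - c) * f x₀ := mul_pos (div_pos (by linarith [ht.1]) hl) hp
    have h2 : 0 ≤ (x₀ - t) / (x₀ - c) * f c :=
      mul_nonneg (div_nonneg (by linarith) hl.le) (h0 c (left_mem_Icc.2 (ht.1.trans ht.2).le))
    linarith
  · exact h ▸ hp
  · have hl : 0 < d - x₀ := by linarith [ht.2]
    have := hf.2 hx₀ (right_mem_Icc.2 (ht.1.trans ht.2).le) (div_nonneg (by linarith [ht.2] : (0 : ℝ) ≤ d - t) hl.le)
      (div_nonneg (by linarith : (0 : ℝ) ≤ t - x₀) hl.le) (by field_simp; ring)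
    simp only [smul_eq_mul] at this
    have e : (d - t) / (d - x₀) * x₀ + (t - x₀) / (d - x₀) * d = t := by field_simp; ring
    rw [e] at this
    have h1 : 0 < (d - t) / (d - x₀) * f x₀ := mul_pos (div_pos (by linarith [ht.2]) hl) hp
    have h2 : 0 ≤ (t - x₀) / (d - x₀) * f d :=
      mul_nonneg (div_nonneg (by linarith) hl.le) (h0 d (right_mem_Icc.2 (ht.1.trans ht.2).le))
    linarith

omit [FiniteDimensional ℝ E] [MeasurableSpace E] [BorelSpace E] in
/-- Interior points of a set see the open interval of its range. -/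
theorem inner_mem_Ioo_of_interior {v : E} (hv : v ≠ 0) {X : Set E} {c d : ℝ}
    (hrange : ∀ x ∈ X, c ≤ ⟪v, x⟫ ∧ ⟪v, x⟫ ≤ d) {x : E} (hx : x ∈ interior X) :
    ⟪v, x⟫ ∈ Ioo c d := by
  obtain ⟨δ, hδ, hball⟩ := Metric.mem_nhds_iff.1 (isOpen_interior.mem_nhds hx)
  have hn : 0 < ‖v‖ := norm_pos_iff.2 hv
  set e : E := (δ / 2 / ‖v‖) • v
  have he : ‖e‖ < δ := by
    rw [norm_smul, Real.norm_eq_abs, abs_of_pos (by positivity), div_mul_cancel₀ _ hn.ne']
    linarith
  have hev : 0 < ⟪v, e⟫ := by
    rw [real_inner_smul_right, real_inner_self_eq_norm_sq]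
    positivity
  have h1 := hrange _ (interior_subset (hball (show x + e ∈ Metric.ball x δ by
    simpa [Metric.mem_ball, dist_eq_norm] using he)))
  have h2 := hrange _ (interior_subset (hball (show x - e ∈ Metric.ball x δ by
    simpa [Metric.mem_ball, dist_eq_norm] using he)))
  rw [inner_add_right] at h1
  rw [inner_sub_right] at h2
  constructor <;> linarith

/-- Integrating a function of `⟪v, x⟫` over a set is integrating it against the sections. -/
theorem lintegral_inner_eq {v : E} (hv : ‖v‖ = 1) {X : Set E} (hX : MeasurableSet X) {h : ℝ → ℝ≥0∞}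
    (hh : Measurable h) :
    ∫⁻ x in X, h ⟪v, x⟫ = ∫⁻ t : ℝ, h t * volume (hslice v X t) := by
  have hm : Measurable fun x : E => X.indicator (fun y => h ⟪v, y⟫) x :=
    (hh.comp (by fun_prop)).indicator hX
  rw [← lintegral_indicator hX, ← (measurePreserving_glue hv).lintegral_comp hm,
    Measure.volume_eq_prod, lintegral_prod_symm _ (Measurable.aemeasurable (show
      Measurable fun z : (ℝ ∙ v)ᗮ × ℝ => X.indicator (fun y => h ⟪v, y⟫) (glue v z) from
        hm.comp (continuous_glue v).measurable))]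
  refine lintegral_congr fun t => ?_
  have e : ∀ y : (ℝ ∙ v)ᗮ, X.indicator (fun z => h ⟪v, z⟫) (glue v (y, t)) =
      (hslice v X t).indicator (fun _ => h t) y := by
    intro y
    by_cases hy : glue v (y, t) ∈ X
    · rw [indicator_of_mem hy, indicator_of_mem (show y ∈ hslice v X t from hy), inner_glue hv]
    · rw [indicator_of_notMem hy, indicator_of_notMem (show y ∉ hslice v X t from hy)]
  simp only [e]
  rw [lintegral_indicator_const (show MeasurableSet (hslice v X t) from
    ((continuous_glue v).comp (continuous_id.prodMk continuous_const)).measurable hX)]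

/-- The average of the reciprocal section radius is at most the integral of the powers. -/
theorem lintegral_inv_root_le {v : E} (hv : ‖v‖ = 1) (k : ℕ) (hfin : finrank ℝ E = k + 2)
    {X : Set E} (hX : IsCompact X) (hXc : Convex ℝ X) {c d x₀ : ℝ}
    (hcd : c ≤ d) (hne : ∀ t ∈ Icc c d, (hslice v X t).Nonempty) (hx₀ : x₀ ∈ Icc c d)
    (hm : 0 < vroot (hslice v X x₀))
    (hmax : ∀ t ∈ Icc c d, vroot (hslice v X t) ≤ vroot (hslice v X x₀))
    (hrange : ∀ x ∈ X, c ≤ ⟪v, x⟫ ∧ ⟪v, x⟫ ≤ d) :
    ∫⁻ x in interior X, ENNReal.ofReal (vroot (hslice v X ⟪v, x⟫))⁻¹ ≤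
      ENNReal.ofReal (∫ t in c..d, vroot (hslice v X t) ^ k) := by
  have : Fact (finrank ℝ E = (k + 1) + 1) := ⟨hfin⟩
  have hF : finrank ℝ (ℝ ∙ v)ᗮ = k + 1 :=
    Submodule.finrank_orthogonal_span_singleton (norm_ne_zero_iff.1 (by simp [hv]))
  have : Nontrivial (ℝ ∙ v)ᗮ := Module.nontrivial_of_finrank_eq_succ hF
  set f : ℝ → ℝ := fun t => vroot (hslice v X t) with hf
  have hcc := concaveOn_vroot_hslice v hX hXc hne
  have hpos : ∀ t ∈ Ioo c d, 0 < f t := fun t ht =>
    pos_of_concave hcc (fun t _ => vroot_nonneg _) hx₀ hm ht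
  have hfm : Measurable f := by
    have h1 : Measurable fun t => volume (hslice v X t) :=
      measurable_measure_prodMk_right ((continuous_glue v).measurable hX.measurableSet)
    exact h1.ennreal_toReal.pow_const _
  set h : ℝ → ℝ≥0∞ := (Ioo c d).indicator fun t => ENNReal.ofReal (f t)⁻¹ with hh
  have hhm : Measurable h := hfm.inv.ennreal_ofReal.indicator measurableSet_Ioo
  have hint : IntervalIntegrable (fun t => f t ^ k) volume c d :=
    integrable_pow hcd hcc (fun t _ => vroot_nonneg _) hmax k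
  have hIoo : IntegrableOn (fun t => f t ^ k) (Ioo c d) :=
    (intervalIntegrable_iff_integrableOn_Ioo_of_le hcd).1 hint
  calc ∫⁻ x in interior X, ENNReal.ofReal (f ⟪v, x⟫)⁻¹
      = ∫⁻ x in interior X, h ⟪v, x⟫ := setLIntegral_congr_fun measurableSet_interior
        fun x hx => (indicator_of_mem
          (inner_mem_Ioo_of_interior (norm_ne_zero_iff.1 (by simp [hv])) hrange hx)
          (fun t => ENNReal.ofReal (f t)⁻¹)).symm
    _ ≤ ∫⁻ x in X, h ⟪v, x⟫ := lintegral_mono_set interior_subset
    _ = ∫⁻ t : ℝ, h t * volume (hslice v X t) := lintegral_inner_eq hv hX.measurableSet hhm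
    _ = ∫⁻ t in Ioo c d, ENNReal.ofReal (f t ^ k) := by
        rw [← lintegral_indicator measurableSet_Ioo]
        refine lintegral_congr fun t => ?_
        by_cases ht : t ∈ Ioo c d
        · rw [hh, indicator_of_mem ht, indicator_of_mem ht,
            ← ENNReal.ofReal_toReal (isCompact_hslice v hX t).measure_lt_top.ne, ← measureReal_def,
            ← vroot_pow (hslice v X t), hF, ← ENNReal.ofReal_mul (inv_nonneg.2 (vroot_nonneg _)),
            pow_succ']
          congr 1
          have := (hpos t ht).ne'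
          simp only [hf] at this ⊢
          field_simp
        · rw [hh, indicator_of_notMem ht, indicator_of_notMem ht, zero_mul]
    _ = _ := by
        rw [← ofReal_integral_eq_lintegral_ofReal hIoo
          (Eventually.of_forall fun t => pow_nonneg (vroot_nonneg _) _),
          intervalIntegral.integral_of_le hcd, integral_Ioc_eq_integral_Ioo]

/-- The section radii integrate the volume over the open interval. -/
theorem integral_Ioo_comp_mul {a : ℝ → ℝ} {c d r : ℝ} (hr : 0 < r) (hcd : c ≤ d) :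
    ∫ t in Ioo (c / r) (d / r), a (r * t) = r⁻¹ * ∫ t in c..d, a t := by
  rw [← integral_Ioc_eq_integral_Ioo,
    ← intervalIntegral.integral_of_le (div_le_div_of_nonneg_right hcd hr.le),
    intervalIntegral.integral_comp_mul_left _ hr.ne', smul_eq_mul,
    mul_div_cancel₀ _ hr.ne', mul_div_cancel₀ _ hr.ne']

/-- The tangent line of a power of a reciprocal. -/
theorem inv_pow_tangent (N : ℕ) {y : ℝ} (hy : 0 < y) :
    (N : ℝ) + 1 ≤ N * y + (y ^ N)⁻¹ := by
  have h := one_add_mul_le_pow (a := y⁻¹ - 1) (by have := inv_pos.2 hy; linarith) (N + 1)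
  rw [add_sub_cancel, inv_pow] at h
  push_cast at h
  have h2 := mul_le_mul_of_nonneg_left h hy.le
  have e1 : y * (1 + ((N : ℝ) + 1) * (y⁻¹ - 1)) = ((N : ℝ) + 1) - N * y := by
    field_simp
    ring
  have e2 : y * (y ^ (N + 1))⁻¹ = (y ^ N)⁻¹ := by
    field_simp
    ring
  rw [e1, e2] at h2
  linarith

end Vale.Agent.P237.Asym
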