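import Vale.Agent.P237.Asym.StepAux
import Vale.Agent.P237.General.Position

/-!
# The asymptotically sharp induction step for polytopes

`|ΠP| ≥ κ_n^(1/n) R_(n-1) |P|^(n-1)`: the average over the facets of the integrals of powers of
sections is controlled by the geometric Brascamp-Lieb inequality and the isoperimetric inequality,
both in the position where the facet measure is isotropic.
-/

namespace Vale.Agent.P237.Asym

set_option linter.unusedSectionVars false

open MeasureTheory Set Module Function Filter AllN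
open scoped RealInnerProductSpace ENNReal Pointwise Topology

variable {E : Type*} [NormedAddCommGroup E] [InnerProductSpace ℝ E] [FiniteDimensional ℝ E]
  [MeasurableSpace E] [BorelSpace E]

/-- The step from dimension `k + 1` to `k + 2` for polytopes. -/
theorem poly_step (k : ℕ) {R : ℝ} (hR : 0 ≤ R) (hfin : finrank ℝ E = k + 2)
    (H : ∀ v : E, ‖v‖ = 1 → ∀ L : Set (ℝ ∙ v)ᗮ, IsCompact L → Convex ℝ L →
      R * volume.real L ^ k ≤ volume.real (projBody L))
    {s : Finset E} {b : E → ℝ} (hs1 : ∀ v ∈ s, ‖v‖ = 1) (hb : ∀ v ∈ s, 0 < b v)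
    (hP : IsCompact (poly s b)) :
    R * vroot (Metric.closedBall (0 : E) 1) * volume.real (poly s b) ^ (k + 1) ≤
      volume.real (projBody (poly s b)) := by
  classical
  have : Nontrivial E := Module.nontrivial_of_finrank_eq_succ hfin
  set P := poly s b with hPdef
  have hPc : Convex ℝ P := convex_poly s b
  set A := facet s b with hA
  set g : E → ℝ := fun v => A v / 2 with hg
  set Z := zono s g with hZ
  -- the origin is inside
  obtain ⟨r, hr, hball⟩ : ∃ r > 0, Metric.closedBall (0 : E) r ⊆ P := by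
    have hopen : IsOpen {x : E | ∀ v ∈ s, ⟪v, x⟫ < b v} := by
      simp only [ofPred_forall]
      exact isOpen_biInter_finset fun v _ => isOpen_lt (by fun_prop) continuous_const
    obtain ⟨r, hr, h⟩ := Metric.nhds_basis_closedBall.mem_iff.1
      (hopen.mem_nhds (x := 0) fun v hv => by simpa using hb v hv)
    exact ⟨r, hr, h.trans fun x hx v hv => (hx v hv).le⟩
  set V := volume.real P with hVdef
  have hV : 0 < V := by
    refine ENNReal.toReal_pos (Measure.measure_pos_of_nonempty_interior volume ⟨0, ?_⟩).ne'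
      hP.measure_lt_top.ne
    exact interior_mono hball (mem_interior_iff_mem_nhds.2 (Metric.closedBall_mem_nhds 0 hr))
  have harea : ∀ u : E, ‖u‖ = 1 → area P u = (∑ v ∈ s, A v * |⟪v, u⟫|) / 2 := fun u hu =>
    area_poly hs1 hP hu
  -- profiles
  choose! c d x₀ hcd hx₀ hm hrange hne hmax hvol using
    fun (v : E) (hv : ‖v‖ = 1) => profile hv k hfin hP hPc hV
  set s' := s.filter fun v => 0 < A v with hs'
  have hmem : ∀ v ∈ s', v ∈ s ∧ 0 < A v := fun v hv => Finset.mem_filter.1 hv
  have hrest : ∀ f : E → ℝ, ∑ v ∈ s', A v * f v = ∑ v ∈ s, A v * f v := fun f =>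
    Finset.sum_subset (Finset.filter_subset _ _) fun v hv hv' => by
      rw [le_antisymm (not_lt.1 fun h => hv' (Finset.mem_filter.2 ⟨hv, h⟩)) (facet_nonneg s b v),
        zero_mul]
  have hspan : Submodule.span ℝ (id '' (s' : Set E)) = ⊤ := by
    rw [← Submodule.orthogonal_eq_bot_iff, eq_bot_iff]
    intro y hy
    rw [Submodule.mem_bot]
    by_contra hne'
    set u := ‖y‖⁻¹ • y
    have hu : ‖u‖ = 1 := norm_smul_inv_norm hne'
    have : Fact (finrank ℝ E = (k + 1) + 1) := ⟨hfin⟩
    have hF : finrank ℝ (ℝ ∙ u)ᗮ = k + 1 :=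
      Submodule.finrank_orthogonal_span_singleton (norm_ne_zero_iff.1 (by simp [hu]))
    have : Nontrivial (ℝ ∙ u)ᗮ := Module.nontrivial_of_finrank_eq_succ hF
    have h := max_mul_le hu hu hP (x₀ u)
    rw [harea u hu, ← hrest fun z => |⟪z, u⟫|, real_inner_self_eq_norm_sq, hu, one_pow, abs_one,
      one_mul, Finset.sum_eq_zero fun z hz => ?_, zero_div, ← vroot_pow, hF] at h
    · exact (pow_pos (hm u hu) (k + 1)).not_ge h
    · have := Submodule.inner_right_of_mem_orthogonal
        (Submodule.subset_span (show z ∈ id '' (s' : Set E) from ⟨z, hz, rfl⟩)) hy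
      simp [u, real_inner_smul_right, this]
  have hs'n : s'.Nonempty := by
    rw [Finset.nonempty_iff_ne_empty]
    intro h0
    rw [h0] at hspan
    simp at hspan
  obtain ⟨L, hL, hLiso⟩ := General.exists_isotropic s' A id (fun v hv => (hmem v hv).2)
    (fun v hv => norm_ne_zero_iff.1 (by simp [hs1 v (hmem v hv).1])) hspan
  simp only [id_eq] at hL hLiso
  set S := ∑ v ∈ s', A v * ‖L v‖ with hS
  have hS0 : 0 < S :=
    Finset.sum_pos (fun v hv => mul_pos (hmem v hv).2 (norm_pos_iff.2 (hL v hv))) hs'n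
  have hdet : L.det ≠ 0 := by
    intro h0
    obtain ⟨x, hx, hx0⟩ := Submodule.exists_mem_ne_zero_of_ne_bot
      (show LinearMap.ker (ContinuousLinearMap.adjoint L : E →ₗ[ℝ] E) ≠ ⊥ from
        LinearMap.det_eq_zero_iff_ker_ne_bot.1 (by
          exact (det_adjoint L).trans h0))
    have h := hLiso x
    rw [Finset.sum_eq_zero fun v _ => by
      rw [← ContinuousLinearMap.adjoint_inner_right, show ContinuousLinearMap.adjoint L x = 0 from hx,
        inner_zero_right]
      ring, mul_zero] at h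
    rcases mul_eq_zero.1 h.symm with h' | h'
    · exact hS0.ne' h'
    · exact hx0 (norm_eq_zero.1 (pow_eq_zero_iff two_ne_zero |>.1 h'))
  set n : ℝ := (k : ℝ) + 2 with hn
  have hn0 : 0 < n := by positivity
  set cc : E → ℝ := fun v => n * A v * ‖L v‖ / S with hcc
  set w : E → ℝ := fun v => cc v / n with hw
  have hcc0 : ∀ v ∈ s', 0 ≤ cc v := fun v hv =>
    div_nonneg (mul_nonneg (mul_nonneg hn0.le (hmem v hv).2.le) (norm_nonneg _)) hS0.le
  have hiso : ∀ x : E, ∑ v ∈ s', cc v * ⟪‖L v‖⁻¹ • L v, x⟫ ^ 2 = ‖x‖ ^ 2 := by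
    intro x
    have h := hLiso x
    rw [hfin] at h
    push_cast at h
    rw [Finset.mul_sum] at h
    refine mul_left_cancel₀ hS0.ne' ?_
    rw [← h, Finset.mul_sum]
    refine Finset.sum_congr rfl fun v hv => ?_
    have := norm_ne_zero_iff.2 (hL v hv)
    rw [real_inner_smul_left, hcc]
    field_simp
    rw [hn]
    ring
  have hw0 : ∀ v ∈ s', 0 ≤ w v := fun v hv => div_nonneg (hcc0 v hv) hn0.le
  have hw1 : ∑ v ∈ s', w v = 1 := by
    simp only [hw, hcc]
    rw [← Finset.sum_div, ← Finset.sum_div]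
    simp only [mul_assoc]
    rw [← Finset.mul_sum, ← hS]
    field_simp
  -- the radii and their integrals
  set f : E → ℝ → ℝ := fun v t => vroot (hslice v P t) with hf
  set F : E → ℝ := fun v => ∫ t in (c v)..(d v), f v t ^ k with hF
  have hv1 : ∀ v ∈ s', ‖v‖ = 1 := fun v hv => hs1 v (hmem v hv).1
  have hfc : ∀ v ∈ s', ConcaveOn ℝ (Icc (c v) (d v)) (f v) := fun v hv => by
    have : Fact (finrank ℝ E = (k + 1) + 1) := ⟨hfin⟩
    have : Nontrivial (ℝ ∙ v)ᗮ := Module.nontrivial_of_finrank_eq_succ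
      (Submodule.finrank_orthogonal_span_singleton (norm_ne_zero_iff.1 (by simp [hv1 v hv]))
        : finrank ℝ (ℝ ∙ v)ᗮ = k + 1)
    exact concaveOn_vroot_hslice v hP hPc (hne v (hv1 v hv))
  have hfcont : ∀ v ∈ s', ContinuousOn (f v) (Ioo (c v) (d v)) := fun v hv => by
    have := (hfc v hv).continuousOn_interior
    rwa [interior_Icc] at this
  have hfpos : ∀ v ∈ s', ∀ t ∈ Ioo (c v) (d v), 0 < f v t := fun v hv t ht =>
    pos_of_concave (hfc v hv) (fun t _ => vroot_nonneg _) (hx₀ v (hv1 v hv)) (hm v (hv1 v hv)) ht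
  set U := interior P with hUdef
  have hUm : MeasurableSet U := measurableSet_interior
  have hUo : IsOpen U := isOpen_interior
  have hUV : volume U = volume P := by
    refine le_antisymm (measure_mono interior_subset) ?_
    calc volume P ≤ volume (closure P) := measure_mono subset_closure
      _ ≤ volume (interior P ∪ frontier P) := measure_mono (closure_eq_interior_union_frontier P).le
      _ ≤ volume (interior P) + volume (frontier P) := measure_union_le _ _
      _ = _ := by rw [hPc.addHaar_frontier volume, add_zero]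
  have hmemU : ∀ x ∈ U, ∀ v ∈ s', ⟪v, x⟫ ∈ Ioo (c v) (d v) := fun x hx v hv =>
    inner_mem_Ioo_of_interior (norm_ne_zero_iff.1 (by simp [hv1 v hv])) (hrange v (hv1 v hv)) hx
  set Φ : E → ℝ := fun x => ∏ v ∈ s', f v ⟪v, x⟫ ^ w v with hΦ
  have hΦpos : ∀ x ∈ U, 0 < Φ x := fun x hx =>
    Finset.prod_pos fun v hv => Real.rpow_pos_of_pos (hfpos v hv _ (hmemU x hx v hv)) _
  have hΦc : ContinuousOn Φ U := by
    refine continuousOn_finsetProd _ fun v hv => ContinuousOn.rpow_const ?_ fun x hx =>
      Or.inl (hfpos v hv _ (hmemU x hx v hv)).ne'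
    exact (hfcont v hv).comp (by fun_prop) fun x hx => hmemU x hx v hv
  -- the Brascamp-Lieb bound
  set N : ℕ := (k + 2) * (k + 1) with hN
  set M : ℝ := |L.det| * ∏ v ∈ s', (‖L v‖⁻¹ * V) ^ cc v with hM
  have hM0 : 0 < M := mul_pos (abs_pos.2 hdet) (Finset.prod_pos fun v hv =>
    Real.rpow_pos_of_pos (mul_pos (inv_pos.2 (norm_pos_iff.2 (hL v hv))) hV) _)
  have hpowint : ∀ v ∈ s', ∀ j : ℕ, IntervalIntegrable (fun t => f v t ^ j) volume (c v) (d v) :=
    fun v hv j => integrable_pow (hcd v (hv1 v hv)) (hfc v hv) (fun t _ => vroot_nonneg _)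
      (hmax v (hv1 v hv)) j
  have hΦN : ∫⁻ x in U, ENNReal.ofReal (Φ x ^ N) ≤ ENNReal.ofReal M := by
    have h := lintegral_prod_le L hdet hcc0 hL hiso (a := fun v t => f v t ^ (k + 1)) (lo := c)
      (hi := d) (fun v hv => hcd v (hv1 v hv)) (fun v hv => (hfcont v hv).pow _)
      (fun v hv t ht => pow_pos (hfpos v hv t ht) _) (fun v hv => hpowint v hv _) hUm hmemU
    rw [← ENNReal.ofReal_mul (abs_nonneg _)] at h
    refine (le_of_eq (setLIntegral_congr_fun hUm fun x hx => ?_)).trans
      (h.trans (le_of_eq ?_))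
    · congr 1
      rw [hΦ, ← Finset.prod_pow]
      refine Finset.prod_congr rfl fun v hv => ?_
      have hp := hfpos v hv _ (hmemU x hx v hv)
      rw [← Real.rpow_natCast, ← Real.rpow_mul hp.le, ← Real.rpow_natCast_mul hp.le]
      congr 1
      simp only [hw, hN, hn]
      push_cast
      field_simp
    · congr 2
      exact Finset.prod_congr rfl fun v hv => by rw [← hvol v (hv1 v hv)]
  -- the reciprocal averages
  have hFpos : ∀ v ∈ s', 0 < F v := fun v hv => by
    refine intervalIntegral.intervalIntegral_pos_of_pos_on (hpowint v hv k)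
      (fun t ht => pow_pos (hfpos v hv t ht) k) ?_
    refine lt_of_le_of_ne (hcd v (hv1 v hv)) fun h => hV.ne' ?_
    rw [hVdef, hvol v (hv1 v hv), h, intervalIntegral.integral_same]
  set G : E → ℝ := fun v => F v / V with hG
  have hG0 : ∀ v ∈ s', 0 < G v := fun v hv => div_pos (hFpos v hv) hV
  set C : ℝ := ∏ v ∈ s', G v ^ w v with hC
  have hC0 : 0 < C := Finset.prod_pos fun v hv => Real.rpow_pos_of_pos (hG0 v hv) _
  have hinv : ∫⁻ x in U, ENNReal.ofReal (Φ x)⁻¹ ≤ ENNReal.ofReal (C * V) :=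
    lintegral_inv_prod_le (r := fun v x => f v ⟪v, x⟫) hUm hw0 hw1
      (fun v hv x hx => hfpos v hv _ (hmemU x hx v hv))
      (fun v hv => (hfcont v hv).comp (by fun_prop) fun x hx => hmemU x hx v hv)
      hV hFpos (fun v _ => rfl)
      fun v hv => lintegral_inv_root_le (hv1 v hv) k hfin hP
        hPc (hcd v (hv1 v hv)) (hne v (hv1 v hv)) (hx₀ v (hv1 v hv)) (hm v (hv1 v hv))
        (hmax v (hv1 v hv)) (hrange v (hv1 v hv))
  -- Jensen: `V / M ≤ C ^ N`
  have hCN : V / M ≤ C ^ N := jensen_inv hUm hΦc hΦpos (by positivity) hV hM0 hC0 (by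
    rw [hUV, hVdef, measureReal_def, ENNReal.ofReal_toReal hP.measure_lt_top.ne]) hinv hΦN
  -- the geometric mean of the shadows
  set D : ℝ := |L.det| with hD
  have hD0 : 0 < D := abs_pos.2 hdet
  set Y : ℝ := ∏ v ∈ s', (F v ^ (k + 1) / ‖L v‖) ^ w v with hY
  have hY0 : 0 ≤ Y := Finset.prod_nonneg fun v hv =>
    Real.rpow_nonneg (div_nonneg (pow_nonneg (hFpos v hv).le _) (norm_nonneg _)) _
  have hgm : V ^ k * (V / D) ^ ((finrank ℝ E : ℝ)⁻¹) ≤ Y := by
    rw [hfin]
    exact geom_mean_ge k hV hD0 hFpos (fun v _ => rfl) (fun v hv => norm_pos_iff.2 (hL v hv))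
      (fun v _ => by simp only [hw, hn]; push_cast; field_simp) hw1 rfl hCN
  have ham : S * Y ≤ ∑ v ∈ s', A v * F v ^ (k + 1) := by
    have h := Real.geom_mean_le_arith_mean_weighted s' w (fun v => F v ^ (k + 1) / ‖L v‖) hw0 hw1
      fun v hv => div_nonneg (pow_nonneg (hFpos v hv).le _) (norm_nonneg _)
    refine (mul_le_mul_of_nonneg_left h hS0.le).trans (le_of_eq ?_)
    rw [Finset.mul_sum]
    refine Finset.sum_congr rfl fun v hv => ?_
    have := norm_ne_zero_iff.2 (hL v hv)
    simp only [hw, hcc]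
    field_simp
  -- the isoperimetric inequality in that position
  have hper : n * vroot P ^ (k + 1) *
      (D ^ ((finrank ℝ E : ℝ)⁻¹) * vroot (Metric.closedBall (0 : E) 1)) ≤ S := by
    set Q := ContinuousLinearMap.adjoint L '' Metric.closedBall (0 : E) 1
    have hQ : vroot Q = D ^ ((finrank ℝ E : ℝ)⁻¹) * vroot (Metric.closedBall (0 : E) 1) := by
      rw [vroot, vroot, measureReal_def, Measure.addHaar_image_continuousLinearMap,
        ENNReal.toReal_mul, ENNReal.toReal_ofReal (abs_nonneg _), ← measureReal_def,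
        Real.mul_rpow (abs_nonneg _) measureReal_nonneg, hD]
      congr 3
      exact det_adjoint L
    have h := minkowski_first (h := fun v => ‖L v‖) hs1 hb hP (Q := Q)
      ((isCompact_closedBall _ _).image (ContinuousLinearMap.continuous _))
      ((Metric.nonempty_closedBall.2 zero_le_one).image _) (fun v _ => norm_nonneg _)
      (by
        rintro v _ _ ⟨z, hz, rfl⟩
        rw [ContinuousLinearMap.adjoint_inner_right]
        exact (real_inner_le_norm _ _).trans
          (mul_le_of_le_one_right (norm_nonneg _) (mem_closedBall_zero_iff.1 hz)))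
    rw [hQ, hfin, show k + 2 - 1 = k + 1 by omega] at h
    push_cast at h
    rw [← hn] at h
    rw [hfin]
    push_cast
    refine h.trans (le_of_eq ?_)
    rw [hS, hrest fun v => ‖L v‖]
    exact Finset.sum_congr rfl fun v _ => by rw [mul_comm]; rfl
  -- assembly
  set K := vroot (Metric.closedBall (0 : E) 1)
  have hmain : n * (K * V ^ (k + 1)) ≤ ∑ v ∈ s', A v * F v ^ (k + 1) := by
    refine le_trans ?_ (le_trans (mul_le_mul hper hgm (by positivity) hS0.le) ham)
    refine le_of_eq ?_
    have hr : vroot P ^ (k + 2) = V := by rw [← hfin, vroot_pow]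
    have hDV : (V / D) ^ ((finrank ℝ E : ℝ)⁻¹) * D ^ ((finrank ℝ E : ℝ)⁻¹) = vroot P := by
      rw [← Real.mul_rpow (div_pos hV hD0).le hD0.le, div_mul_cancel₀ _ hD0.ne']
      rfl
    calc n * (K * V ^ (k + 1)) = n * K * V ^ k * vroot P ^ (k + 2) := by rw [hr]; ring
      _ = n * K * V ^ k * vroot P ^ (k + 1) *
          ((V / D) ^ ((finrank ℝ E : ℝ)⁻¹) * D ^ ((finrank ℝ E : ℝ)⁻¹)) := by rw [hDV]; ring
      _ = _ := by ring
  have hshadow : ∀ v ∈ s', R * F v ^ (k + 1) ≤ area Z v := fun v hv =>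
    shadow_bound k hR (hv1 v hv) hfin (H v (hv1 v hv)) hP hPc hr hball (s := s) (g := g)
      (fun u hu => le_of_eq (by
        rw [harea u hu, Finset.sum_div]
        exact Finset.sum_congr rfl fun z _ => by simp only [hg]; ring))
      (hcd v (hv1 v hv)) (hne v (hv1 v hv))
  have hg0 : ∀ v ∈ s, 0 ≤ g v := fun v _ => by
    have := facet_nonneg s b v; simp only [hg, hA]; positivity
  have hzv := zono_volume hs1 (g := g) hg0
  have hsub : Z ⊆ projBody P := fun x hx u hu => by
    refine (inner_zono_le hg0 hx u).trans (le_of_eq ?_)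
    rw [harea u hu, Finset.sum_div]
    exact Finset.sum_congr rfl fun z _ => by simp only [hg]; ring
  have h1 : volume.real Z ≤ volume.real (projBody P) :=
    measureReal_mono hsub (isCompact_projBody P).measure_lt_top.ne
  have e3 : 2 * ∑ v ∈ s, g v * area Z v = ∑ v ∈ s, A v * area Z v := by
    rw [Finset.mul_sum]; exact Finset.sum_congr rfl fun v _ => by simp only [hg]; ring
  rw [e3, ← hrest fun v => area Z v, hfin] at hzv
  push_cast at hzv
  refine le_of_mul_le_mul_left ?_ hn0
  calc n * (R * K * V ^ (k + 1)) = R * (n * (K * V ^ (k + 1))) := by ring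
    _ ≤ R * ∑ v ∈ s', A v * F v ^ (k + 1) := mul_le_mul_of_nonneg_left hmain hR
    _ ≤ ∑ v ∈ s', A v * area Z v := by
        rw [Finset.mul_sum]
        exact Finset.sum_le_sum fun v hv => le_trans (le_of_eq (by ring))
          (mul_le_mul_of_nonneg_left (hshadow v hv) (hmem v hv).2.le)
    _ ≤ n * volume.real Z := by rw [hn]; exact hzv
    _ ≤ _ := mul_le_mul_of_nonneg_left h1 hn0.le

end Vale.Agent.P237.Asym
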