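import Vale.Agent.P237.Asym.Shadows

/-!
# Auxiliary lemmas for the induction step

`|ΠP| ≥ κ_n^(1/n) R_(n-1) |P|^(n-1)`: the average over the facets of the integrals of powers of
sections is controlled by the geometric Brascamp-Lieb inequality and the isoperimetric inequality,
both in the position where the facet measure is isotropic.
-/

namespace Vale.Agent.P237.Asym

set_option linter.unusedSectionVars false

open MeasureTheory Set Module Function Filter AllN
open scoped RealInnerProductSpace ENNReal Pointwise Topology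

variable {E : Type*} [NormedAddCommGroup E] [InnerProductSpace ℝ E] [FiniteDimensional ℝ E]
  [MeasurableSpace E] [BorelSpace E]

/-- The adjoint has the same determinant. -/
theorem det_adjoint (L : E →L[ℝ] E) : (ContinuousLinearMap.adjoint L).det = L.det := by
  show LinearMap.det (ContinuousLinearMap.adjoint L : E →ₗ[ℝ] E) = LinearMap.det (L : E →ₗ[ℝ] E)
  set o := stdOrthonormalBasis ℝ E
  rw [← LinearMap.det_toMatrix o.toBasis, ← LinearMap.det_toMatrix o.toBasis,
    ← ContinuousLinearMap.adjoint_toLinearMap, LinearMap.toMatrix_adjoint, Matrix.det_conjTranspose,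
    star_trivial]

/-- Pulled-back products of section radii have small integral. -/
theorem lintegral_prod_le (L : E →L[ℝ] E) (hdet : L.det ≠ 0) {s : Finset E} {c : E → ℝ}
    (hc : ∀ v ∈ s, 0 ≤ c v) (hL : ∀ v ∈ s, L v ≠ 0)
    (hiso : ∀ x : E, ∑ v ∈ s, c v * ⟪‖L v‖⁻¹ • L v, x⟫ ^ 2 = ‖x‖ ^ 2)
    {a : E → ℝ → ℝ} {lo hi : E → ℝ} (hle : ∀ v ∈ s, lo v ≤ hi v)
    (hcont : ∀ v ∈ s, ContinuousOn (a v) (Ioo (lo v) (hi v)))
    (hpos : ∀ v ∈ s, ∀ t ∈ Ioo (lo v) (hi v), 0 < a v t)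
    (hint : ∀ v ∈ s, IntervalIntegrable (a v) volume (lo v) (hi v))
    {U : Set E} (hU : MeasurableSet U) (hsub : ∀ x ∈ U, ∀ v ∈ s, ⟪v, x⟫ ∈ Ioo (lo v) (hi v)) :
    ∫⁻ x in U, ENNReal.ofReal (∏ v ∈ s, a v ⟪v, x⟫ ^ c v) ≤
      ENNReal.ofReal |L.det| *
        ENNReal.ofReal (∏ v ∈ s, (‖L v‖⁻¹ * ∫ t in (lo v)..(hi v), a v t) ^ c v) := by
  set M : E →L[ℝ] E := ContinuousLinearMap.adjoint L with hM
  have hMd : M.det = L.det := det_adjoint L
  set e := LinearMap.equivOfIsUnitDet (f := (M : E →ₗ[ℝ] E))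
    (isUnit_iff_ne_zero.2 (by rw [show LinearMap.det (M : E →ₗ[ℝ] E) = M.det from rfl, hMd]
                              exact hdet))
  have heM : ∀ x, e x = M x := fun x => by simp [e]
  have hinj : InjOn M (M ⁻¹' U) := fun x _ y _ h => e.injective (by rw [heM, heM, h])
  have himg : M '' (M ⁻¹' U) = U :=
    image_preimage_eq U fun y => ⟨e.symm y, by rw [← heM, e.apply_symm_apply]⟩
  have hUy : MeasurableSet (M ⁻¹' U) := M.continuous.measurable hU
  have hpull : ∀ v y, ⟪v, M y⟫ = ‖L v‖ * ⟪‖L v‖⁻¹ • L v, y⟫ ∨ L v = 0 := fun v y => by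
    by_cases h : L v = 0
    · exact Or.inr h
    · left
      rw [hM, ContinuousLinearMap.adjoint_inner_right, real_inner_smul_left, ← mul_assoc,
        mul_inv_cancel₀ (norm_ne_zero_iff.2 h), one_mul]
  have hscal : ∀ v ∈ s, ∀ t ∈ Ioo (lo v / ‖L v‖) (hi v / ‖L v‖), ‖L v‖ * t ∈ Ioo (lo v) (hi v) := by
    intro v hv t ht
    have hr := norm_pos_iff.2 (hL v hv)
    exact ⟨(div_lt_iff₀' hr).1 ht.1, (lt_div_iff₀' hr).1 ht.2⟩
  have hbl := geometric_bl (s := s) (w := fun v => ‖L v‖⁻¹ • L v) hc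
    (fun v hv => norm_smul_inv_norm (hL v hv)) hiso
    (p := fun v => lo v / ‖L v‖) (q := fun v => hi v / ‖L v‖) (f := fun v t => a v (‖L v‖ * t))
    (fun v hv => (hcont v hv).comp (continuous_const.mul continuous_id).continuousOn
      fun t ht => hscal v hv t ht)
    (fun v hv t ht => hpos v hv _ (hscal v hv t ht))
    (fun v hv => by
      have hr := norm_pos_iff.2 (hL v hv)
      have h := (hint v hv).comp_mul_left (c := ‖L v‖)
      rwa [intervalIntegrable_iff_integrableOn_Ioo_of_le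
        (div_le_div_of_nonneg_right (hle v hv) hr.le)] at h)
    hUy (fun y hy v hv => by
      have hr := norm_pos_iff.2 (hL v hv)
      have h := hsub _ hy v hv
      rw [(hpull v y).resolve_right (hL v hv)] at h
      exact ⟨(div_lt_iff₀' hr).2 h.1, (lt_div_iff₀' hr).2 h.2⟩)
  rw [← himg, lintegral_image_eq_lintegral_abs_det_fderiv_mul volume hUy
    (fun x _ => M.hasFDerivAt.hasFDerivWithinAt) hinj, lintegral_const_mul' _ _ ENNReal.ofReal_ne_top,
    hMd]
  refine mul_le_mul_right ((le_of_eq ?_).trans (hbl.trans (le_of_eq ?_))) _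
  · refine setLIntegral_congr_fun hUy fun y hy => ?_
    congr 1
    exact Finset.prod_congr rfl fun v hv => by rw [(hpull v y).resolve_right (hL v hv)]
  · congr 1
    exact Finset.prod_congr rfl fun v hv => by
      rw [integral_Ioo_comp_mul (norm_pos_iff.2 (hL v hv)) (hle v hv)]

/-- The geometric mean of reciprocals has small integral. -/
theorem lintegral_inv_prod_le {s' : Finset E} {w G F : E → ℝ} {r : E → E → ℝ} {V : ℝ} {U : Set E}
    (hUm : MeasurableSet U) (hw0 : ∀ v ∈ s', 0 ≤ w v) (hw1 : ∑ v ∈ s', w v = 1)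
    (hr : ∀ v ∈ s', ∀ x ∈ U, 0 < r v x) (hrc : ∀ v ∈ s', ContinuousOn (r v) U)
    (hV : 0 < V) (hFpos : ∀ v ∈ s', 0 < F v) (hG : ∀ v ∈ s', G v = F v / V)
    (hF : ∀ v ∈ s', ∫⁻ x in U, ENNReal.ofReal (r v x)⁻¹ ≤ ENNReal.ofReal (F v)) :
    ∫⁻ x in U, ENNReal.ofReal (∏ v ∈ s', r v x ^ w v)⁻¹ ≤
      ENNReal.ofReal ((∏ v ∈ s', G v ^ w v) * V) := by
  have hG0 : ∀ v ∈ s', 0 < G v := fun v hv => by rw [hG v hv]; exact div_pos (hFpos v hv) hV
  set C : ℝ := ∏ v ∈ s', G v ^ w v with hC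
  have hC0 : 0 < C := Finset.prod_pos fun v hv => Real.rpow_pos_of_pos (hG0 v hv) _
  calc ∫⁻ x in U, ENNReal.ofReal (∏ v ∈ s', r v x ^ w v)⁻¹
      ≤ ∫⁻ x in U, ∑ v ∈ s', ENNReal.ofReal (C * (w v / G v)) *
          ENNReal.ofReal (r v x)⁻¹ := by
        refine setLIntegral_mono' hUm fun x hx => ?_
        have hterm : ∀ v ∈ s', 0 ≤ C * (w v / G v) * (r v x)⁻¹ := fun v hv =>
          mul_nonneg (mul_nonneg hC0.le (div_nonneg (hw0 v hv) (hG0 v hv).le))
            (inv_nonneg.2 (hr v hv x hx).le)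
        rw [Finset.sum_congr rfl fun v hv => (ENNReal.ofReal_mul
          (mul_nonneg hC0.le (div_nonneg (hw0 v hv) (hG0 v hv).le))).symm,
          ← ENNReal.ofReal_sum_of_nonneg hterm]
        refine ENNReal.ofReal_le_ofReal ?_
        have hz : ∀ v ∈ s', 0 ≤ (r v x)⁻¹ / G v := fun v hv =>
          div_nonneg (inv_nonneg.2 (hr v hv x hx).le) (hG0 v hv).le
        have h := Real.geom_mean_le_arith_mean_weighted s' w _ hw0 hw1 hz
        rw [Finset.prod_congr rfl fun v hv => Real.div_rpow (inv_nonneg.2 (hr v hv x hx).le)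
          (hG0 v hv).le (w v), Finset.prod_div_distrib, ← hC,
          Finset.prod_congr rfl fun v hv => Real.inv_rpow (hr v hv x hx).le (w v),
          Finset.prod_inv_distrib, div_le_iff₀ hC0] at h
        refine h.trans (le_of_eq ?_)
        rw [Finset.sum_mul]
        exact Finset.sum_congr rfl fun v _ => by ring
    _ = ∑ v ∈ s', ENNReal.ofReal (C * (w v / G v)) *
          ∫⁻ x in U, ENNReal.ofReal (r v x)⁻¹ := by
        rw [lintegral_finsetSum' _ fun v hv => ?_]
        · exact Finset.sum_congr rfl fun v _ => lintegral_const_mul' _ _ ENNReal.ofReal_ne_top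
        · refine AEMeasurable.const_mul ?_ _
          exact (((hrc v hv).inv₀ fun x hx => (hr v hv x hx).ne').aemeasurable hUm).ennreal_ofReal
    _ ≤ ∑ v ∈ s', ENNReal.ofReal (C * (w v / G v)) * ENNReal.ofReal (F v) :=
        Finset.sum_le_sum fun v hv => mul_le_mul_right (hF v hv) _
    _ = ENNReal.ofReal (C * V) := by
        rw [Finset.sum_congr rfl fun v hv => (ENNReal.ofReal_mul
          (mul_nonneg hC0.le (div_nonneg (hw0 v hv) (hG0 v hv).le))).symm,
          ← ENNReal.ofReal_sum_of_nonneg fun v hv => mul_nonneg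
            (mul_nonneg hC0.le (div_nonneg (hw0 v hv) (hG0 v hv).le)) (hFpos v hv).le]
        congr 1
        calc ∑ v ∈ s', C * (w v / G v) * F v = ∑ v ∈ s', C * V * w v :=
              Finset.sum_congr rfl fun v hv => by
                have := (hFpos v hv).ne'
                rw [hG v hv]
                field_simp
          _ = C * V := by rw [← Finset.mul_sum, hw1, mul_one]

/-- Jensen for a reciprocal against a power, through the tangent line. -/
theorem jensen_inv {U : Set E} (hUm : MeasurableSet U) {Φ : E → ℝ} (hΦc : ContinuousOn Φ U)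
    (hΦpos : ∀ x ∈ U, 0 < Φ x) {N : ℕ} (hN0 : 0 < N) {V M C : ℝ} (hV : 0 < V) (hM0 : 0 < M)
    (hC0 : 0 < C) (hUV : volume U = ENNReal.ofReal V)
    (hinv : ∫⁻ x in U, ENNReal.ofReal (Φ x)⁻¹ ≤ ENNReal.ofReal (C * V))
    (hΦN : ∫⁻ x in U, ENNReal.ofReal (Φ x ^ N) ≤ ENNReal.ofReal M) : V / M ≤ C ^ N := by
  set β : ℝ := (M / V) ^ ((N : ℝ)⁻¹) with hβ
  have hβ0 : 0 < β := Real.rpow_pos_of_pos (div_pos hM0 hV) _
  have hβN : β ^ N = M / V :=
    Real.rpow_inv_natCast_pow (div_pos hM0 hV).le (by omega)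
  have hint : ENNReal.ofReal ((N : ℝ) + 1) * volume U ≤
      ENNReal.ofReal (N * β) * ENNReal.ofReal (C * V) +
        ENNReal.ofReal (V / M) * ENNReal.ofReal M := by
    calc ENNReal.ofReal ((N : ℝ) + 1) * volume U
        = ∫⁻ _ in U, ENNReal.ofReal ((N : ℝ) + 1) := (setLIntegral_const _ _).symm
      _ ≤ ∫⁻ x in U, (ENNReal.ofReal (N * β) * ENNReal.ofReal (Φ x)⁻¹ +
            ENNReal.ofReal (V / M) * ENNReal.ofReal (Φ x ^ N)) := by
          refine setLIntegral_mono' hUm fun x hx => ?_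
          have hp := hΦpos x hx
          rw [← ENNReal.ofReal_mul (by positivity), ← ENNReal.ofReal_mul (by positivity),
            ← ENNReal.ofReal_add (by positivity) (by positivity)]
          refine ENNReal.ofReal_le_ofReal ?_
          have h := inv_pow_tangent N (div_pos hβ0 hp)
          rw [div_pow, hβN, inv_div] at h
          refine h.trans (le_of_eq ?_)
          field_simp
      _ = ENNReal.ofReal (N * β) * (∫⁻ x in U, ENNReal.ofReal (Φ x)⁻¹) +
            ENNReal.ofReal (V / M) * ∫⁻ x in U, ENNReal.ofReal (Φ x ^ N) := by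
          rw [lintegral_add_left', lintegral_const_mul' _ _ ENNReal.ofReal_ne_top,
            lintegral_const_mul' _ _ ENNReal.ofReal_ne_top]
          exact AEMeasurable.const_mul (((hΦc.inv₀ fun x hx => (hΦpos x hx).ne').aemeasurable
            hUm).ennreal_ofReal) _
      _ ≤ _ := add_le_add (mul_le_mul_right hinv _) (mul_le_mul_right hΦN _)
  rw [hUV,
    ← ENNReal.ofReal_mul (by positivity), ← ENNReal.ofReal_mul (by positivity),
    ← ENNReal.ofReal_mul (by positivity), ← ENNReal.ofReal_add (by positivity) (by positivity),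
    ENNReal.ofReal_le_ofReal_iff (by positivity), div_mul_cancel₀ _ hM0.ne'] at hint
  have h1 : 1 ≤ β * C := by
    have hN0' : (0 : ℝ) < N := by exact_mod_cast hN0
    by_contra h
    nlinarith [mul_lt_mul_of_pos_left (not_le.1 h) (mul_pos hN0' hV)]
  have h2 := one_le_pow₀ h1 (n := N)
  rw [mul_pow, hβN, div_mul_eq_mul_div, le_div_iff₀ hV, one_mul] at h2
  rw [div_le_iff₀ hM0]
  linarith

/-- The algebra of exponents. -/
theorem geom_mean_ge (k : ℕ) {s' : Finset E} {w cc F G r : E → ℝ} {V D M : ℝ}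
    (hV : 0 < V) (hD0 : 0 < D) (hFpos : ∀ v ∈ s', 0 < F v) (hG : ∀ v ∈ s', G v = F v / V)
    (hr : ∀ v ∈ s', 0 < r v) (hcw : ∀ v ∈ s', cc v = w v * ((k + 2 : ℕ) : ℝ))
    (hw1 : ∑ v ∈ s', w v = 1) (hM : M = D * ∏ v ∈ s', ((r v)⁻¹ * V) ^ cc v)
    (hCN : V / M ≤ (∏ v ∈ s', G v ^ w v) ^ ((k + 2) * (k + 1))) :
    V ^ k * (V / D) ^ (((k + 2 : ℕ) : ℝ)⁻¹) ≤ ∏ v ∈ s', (F v ^ (k + 1) / r v) ^ w v := by
  set N : ℕ := (k + 2) * (k + 1) with hN
  set C : ℝ := ∏ v ∈ s', G v ^ w v with hC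
  have hG0 : ∀ v ∈ s', 0 < G v := fun v hv => by rw [hG v hv]; exact div_pos (hFpos v hv) hV
  set Y : ℝ := ∏ v ∈ s', (F v ^ (k + 1) / r v) ^ w v with hY
  have hY0 : 0 ≤ Y := Finset.prod_nonneg fun v hv =>
    Real.rpow_nonneg (div_nonneg (pow_nonneg (hFpos v hv).le _) (hr v hv).le) _
  have hsum : ∑ v ∈ s', cc v = ((k + 2 : ℕ) : ℝ) := by
    rw [Finset.sum_congr rfl hcw, ← Finset.sum_mul, hw1, one_mul]
  refine le_of_pow_le_pow_left₀ (n := k + 2) (by omega) hY0 ?_
  rw [mul_pow, Real.rpow_inv_natCast_pow (div_pos hV hD0).le (by omega)]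
  have hYn : Y ^ (k + 2) = C ^ N * (V ^ (k + 1)) ^ (k + 2) *
      ∏ v ∈ s', ((r v)⁻¹) ^ cc v := by
    have e1 : ∀ v ∈ s', ((F v ^ (k + 1) / r v) ^ w v) ^ (k + 2) =
        (G v ^ w v) ^ N * (V ^ cc v) ^ (k + 1) * ((r v)⁻¹) ^ cc v := by
      intro v hv
      have hGv := (hG0 v hv).le
      rw [show F v = G v * V by rw [hG v hv, div_mul_cancel₀ _ hV.ne'], hcw v hv,
        div_eq_mul_inv, Real.mul_rpow (by positivity) (inv_nonneg.2 (hr v hv).le), mul_pow,
        mul_pow, Real.mul_rpow (by positivity) (by positivity),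
        Real.rpow_mul hV.le, Real.rpow_mul (inv_nonneg.2 (hr v hv).le), Real.rpow_natCast,
        Real.rpow_natCast, mul_pow, ← Real.rpow_natCast (G v) (k + 1), ← Real.rpow_mul hGv,
        mul_comm ((k + 1 : ℕ) : ℝ), Real.rpow_mul hGv, Real.rpow_natCast,
        ← Real.rpow_natCast V (k + 1), ← Real.rpow_mul hV.le,
        mul_comm ((k + 1 : ℕ) : ℝ), Real.rpow_mul hV.le, Real.rpow_natCast, hN]
      ring
    rw [hY, ← Finset.prod_pow, Finset.prod_congr rfl e1, Finset.prod_mul_distrib,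
      Finset.prod_mul_distrib, Finset.prod_pow, Finset.prod_pow,
      ← Real.rpow_sum_of_pos hV, hsum,
      Real.rpow_natCast, ← hC]
    ring
  rw [hYn]
  have hprod : 0 < ∏ v ∈ s', ((r v)⁻¹) ^ cc v := Finset.prod_pos fun v hv =>
    Real.rpow_pos_of_pos (inv_pos.2 (hr v hv)) _
  refine le_trans ?_ (mul_le_mul_of_nonneg_right
    (mul_le_mul_of_nonneg_right hCN (by positivity)) hprod.le)
  have hMeq : M = D * ((∏ v ∈ s', ((r v)⁻¹) ^ cc v) * V ^ (k + 2)) := by
    rw [hM, Finset.prod_congr rfl fun v hv =>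
      Real.mul_rpow (inv_nonneg.2 (hr v hv).le) hV.le, Finset.prod_mul_distrib,
      ← Real.rpow_sum_of_pos hV, hsum,
      Real.rpow_natCast]
  rw [hMeq]
  refine le_of_eq ?_
  generalize ∏ v ∈ s', ((r v)⁻¹) ^ cc v = Pz at hprod ⊢
  field_simp
  ring

end Vale.Agent.P237.Asym
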